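import Vale.Agent.P095.AF.Main

namespace Vale.Agent.Results.P095.AFEquivariantZStable

open Vale.Agent.P095

/-- Every action of a countable amenable group on a simple unital infinite-dimensional AF algebra
is cocycle conjugate to its tensor product with the trivial action on the Jiang-Su algebra. -/
theorem result {G A : Type*} [Group G] [Countable G] [CStarAlgebra A] [IsSimpleRing A]
    (hG : IsAmenableGroup G) (hAF : AF.IsAF A) (hinf : ¬FiniteDimensional ℂ A)
    (α : G → A ≃⋆ₐ[ℂ] A) (hα : ∀ g h a, α (g * h) a = α g (α h a)) :
    AF.IsEquivariantlyZStable α :=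
  AF.isEquivariantlyZStable_of_isAF hG hAF hinf α hα

end Vale.Agent.Results.P095.AFEquivariantZStable
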