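import Vale.Agent.P095.Gamma
import Vale.Agent.P095.Upgrade.Transfer
import Vale.Agent.P095.Upgrade.Final
import Vale.Agent.P095.Drop.McDuff

namespace Vale.Agent.Results.P095.EquivariantMcDuff

open Vale.Agent.P095

/-- Every action of an amenable group on a uniformly McDuff unital C⋆-algebra is equivariantly
uniformly McDuff and has equivariant uniform property Gamma; central maps from large prime
dimension drop algebras make an algebra uniformly McDuff. -/
theorem result {G A : Type*} [Group G] [CStarAlgebra A] (hG : IsAmenableGroup G)
    (α : G → A ≃⋆ₐ[ℂ] A) (hα : ∀ g h a, α (g * h) a = α g (α h a)) :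
    (HasCentralDropMaps A → IsUniformlyMcDuff A) ∧
      (IsUniformlyMcDuff A →
        HasEquivariantUniformMcDuff α ∧ HasEquivariantUniformGamma α) :=
  ⟨Drop.isUniformlyMcDuff, fun hA =>
    ⟨hasEquivariantUniformMcDuff_of_goal hA α hα (mcDuffGoal_of_foelner hG _),
      hasEquivariantUniformGamma hA hG α hα⟩⟩

end Vale.Agent.Results.P095.EquivariantMcDuff
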