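import Mathlib

namespace Vale.Agent.Results.P095.PointwiseInner

open scoped CStarAlgebra

/-- Cocycle conjugacy to `α ⊗ id` for pointwise inner actions on simple unital
C*-algebras.  `B`, `ι`, `S`, `β` are characterised by the properties of
`A ⊗ Z`, `a ↦ a ⊗ 1`, `{1 ⊗ z}`, `α ⊗ id`. -/
theorem result
    {G A B : Type*} [Group G] [CStarAlgebra A] [CStarAlgebra B] [IsSimpleRing A]
    (ι : A →⋆ₐ[ℂ] B) (S : Set B)
    (hcomm : ∀ a, ∀ z ∈ S, ι a * z = z * ι a)
    (hgen : Dense (StarAlgebra.adjoin ℂ (Set.range ι ∪ S) : Set B))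
    (Φ : A ≃⋆ₐ[ℂ] B)
    (α : G → (A ≃⋆ₐ[ℂ] A)) (hα : ∀ g h a, α (g * h) a = α g (α h a))
    (hinner : ∀ g, ∃ v ∈ unitary A, ∀ a, α g a = v * a * star v)
    (β : G → (B ≃⋆ₐ[ℂ] B)) (hβι : ∀ g a, β g (ι a) = ι (α g a))
    (hβS : ∀ g, ∀ z ∈ S, β g z = z) :
    ∃ u : G → B, (∀ g, u g ∈ unitary B) ∧ (∀ g h, u (g * h) = u g * β g (u h)) ∧
      ∀ g a, Φ (α g a) = u g * β g (Φ a) * star (u g) := by
  choose v hv hva using hinner
  have hvl : ∀ g, star (v g) * v g = 1 := fun g => (Unitary.mem_iff.1 (hv g)).1
  have hvr : ∀ g, v g * star (v g) = 1 := fun g => (Unitary.mem_iff.1 (hv g)).2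
  let w : G → unitary B := fun g => ⟨ι (v g), Unitary.map_mem ι (hv g)⟩
  -- `β g` is conjugation by `ι (v g)`
  have key : ∀ g x, β g x = (w g : B) * x * star (w g : B) := by
    intro g
    let f : B →⋆ₐ[ℂ] B := (β g : B →⋆ₐ[ℂ] B)
    let f' : B →⋆ₐ[ℂ] B := (Unitary.conjStarAlgAut ℂ B (w g) : B →⋆ₐ[ℂ] B)
    have heq : Set.EqOn f f' (StarAlgebra.adjoin ℂ (Set.range ι ∪ S) : Set B) := by
      intro x hx
      induction hx using StarAlgebra.adjoin_induction with
      | mem y hy =>
        rcases hy with ⟨a, rfl⟩ | hy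
        · show β g (ι a) = ι (v g) * ι a * star (ι (v g))
          rw [hβι, hva, map_mul, map_mul, map_star]
        · show β g y = ι (v g) * y * star (ι (v g))
          rw [hβS g y hy, hcomm _ y hy, ← map_star, mul_assoc, ← map_mul, hvr, map_one, mul_one]
      | algebraMap r => rw [AlgHomClass.commutes f, AlgHomClass.commutes f']
      | add y z _ _ hy hz => rw [map_add, map_add, hy, hz]
      | mul y z _ _ hy hz => rw [map_mul, map_mul, hy, hz]
      | star y _ hy => rw [map_star, map_star, hy]
    exact fun x => congrFun (Continuous.ext_on hgen (map_continuous f) (map_continuous f') heq) x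
  -- the unitaries `v` form a projective representation
  have scal : ∀ g h, ∃ c : ℂ, v g * v h = c • v (g * h) := by
    intro g h
    set z := star (v (g * h)) * (v g * v h) with hz
    have hl : star (v g * v h) * (v g * v h) = 1 :=
      (Unitary.mem_iff.1 (mul_mem (hv g) (hv h))).1
    have hc : ∀ a, z * a = a * z := by
      intro a
      have e : (v g * v h) * a * star (v g * v h) = v (g * h) * a * star (v (g * h)) := by
        rw [← hva (g * h), hα, hva, hva, star_mul]
        simp only [mul_assoc]
      calc z * a = star (v (g * h)) * ((v g * v h) * a * (star (v g * v h) * (v g * v h))) := by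
            rw [hl, mul_one, hz, mul_assoc]
        _ = star (v (g * h)) * ((v g * v h) * a * star (v g * v h)) * (v g * v h) := by
            simp only [mul_assoc]
        _ = star (v (g * h)) * v (g * h) * a * z := by
            rw [e, hz]; simp only [mul_assoc]
        _ = a * z := by rw [hvl, one_mul]
    obtain ⟨c, hcs⟩ := spectrum.nonempty (A := A) z
    have hw : z - algebraMap ℂ A c ∈ Subring.center A := by
      rw [Subring.mem_center_iff]
      intro a
      rw [sub_mul, mul_sub, hc, Algebra.commutes]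
    have h0 : z - algebraMap ℂ A c = 0 := by
      by_contra hne
      obtain ⟨b, hb⟩ := (IsSimpleRing.isField_center A).mul_inv_cancel
        (a := (⟨_, hw⟩ : Subring.center A)) (fun H => hne (congrArg Subtype.val H))
      have hb' : (z - algebraMap ℂ A c) * (b : A) = 1 := congrArg Subtype.val hb
      have hb'' : (b : A) * (z - algebraMap ℂ A c) = 1 := by
        rw [Subring.mem_center_iff.1 hw]; exact hb'
      apply spectrum.mem_iff.1 hcs
      rw [← IsUnit.neg_iff, neg_sub]
      exact ⟨⟨_, _, hb', hb''⟩, rfl⟩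
    refine ⟨c, ?_⟩
    calc v g * v h = v (g * h) * z := by rw [hz, ← mul_assoc, hvr, one_mul]
      _ = v (g * h) * algebraMap ℂ A c := by rw [sub_eq_zero.1 h0]
      _ = c • v (g * h) := by rw [← Algebra.commutes, ← Algebra.smul_def]
  refine ⟨fun g => Φ (v g) * star (w g : B), fun g => ?_, fun g h => ?_, fun g a => ?_⟩
  · exact mul_mem (Unitary.map_mem Φ (hv g)) (Unitary.star_mem (w g).2)
  · obtain ⟨c, hc⟩ := scal g h
    have h1 : (v g * v h) * star (v g * v h) = 1 :=
      (Unitary.mem_iff.1 (mul_mem (hv g) (hv h))).2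
    rw [hc, star_smul, smul_mul_smul_comm, hvr] at h1
    have hl : star (ι (v g)) * ι (v g) = 1 := Unitary.coe_star_mul_self (w g)
    rw [key]
    show Φ (v (g * h)) * star (ι (v (g * h))) =
      Φ (v g) * star (ι (v g)) * (ι (v g) * (Φ (v h) * star (ι (v h))) * star (ι (v g)))
    calc Φ (v (g * h)) * star (ι (v (g * h)))
        = (c * star c) • (Φ (v (g * h)) * star (ι (v (g * h)))) := by
          have h2 := congrArg ι h1
          rw [map_smul, map_one] at h2
          calc Φ (v (g * h)) * star (ι (v (g * h)))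
              = Φ (v (g * h)) * star (ι (v (g * h))) * (1 : B) := (mul_one _).symm
            _ = _ := by rw [← h2, mul_smul_comm, mul_one]
      _ = Φ (v g * v h) * star (ι (v g * v h)) := by
          rw [hc, map_smul, map_smul, star_smul, smul_mul_smul_comm]
      _ = Φ (v g) * (star (ι (v g)) * ι (v g)) * (Φ (v h) * star (ι (v h))) * star (ι (v g)) := by
          rw [hl, map_mul, map_mul, star_mul]; simp only [mul_assoc, one_mul]
      _ = _ := by simp only [mul_assoc]
  · have hl : star (w g : B) * (w g : B) = 1 := Unitary.coe_star_mul_self _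
    rw [key, hva]
    simp only [map_mul, map_star, star_mul, star_star]
    calc Φ (v g) * Φ a * star (Φ (v g))
        = Φ (v g) * (star (w g : B) * w g) * Φ a * (star (w g : B) * w g) * star (Φ (v g)) := by
          rw [hl]; simp
      _ = _ := by simp only [mul_assoc]

end Vale.Agent.Results.P095.PointwiseInner
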