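import Vale.Agent.P095.Uni.Main

namespace Vale.Agent.Results.P095.UnitalEquivariantZStable

open Vale.Agent.P095

universe u v

/-- Every action of a countable amenable group on a unital separable simple nuclear Z-stable
C⋆-algebra is cocycle conjugate to its tensor product with the trivial action on the Jiang-Su
algebra. -/
theorem result : ∃ (Z : Type) (_ : CStarAlgebra Z), Vale.Agent.P101.Statement.IsJiangSuAlgebra Z ∧
    ∀ (G : Type v) [Group G] [Countable G] (A : Type u) [CStarAlgebra A] [IsSimpleRing A]
      [TopologicalSpace.SeparableSpace A],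
      IsAmenableGroup G → Uni.IsNuclear A → Vale.Agent.P101.IsZStable A Z →
        ∀ (α : G → A ≃⋆ₐ[ℂ] A), (∀ g h a, α (g * h) a = α g (α h a)) →
          AF.IsEquivariantlyZStable α :=
  ⟨Vale.Agent.P101.Limit.JS, inferInstance,
    Vale.Agent.P101.Statement.isJiangSuAlgebra Vale.Agent.P101.Limit.isJiangSu,
    fun _G _ _ _A _ _ _ hG hn hZ α hα => Uni.isEquivariantlyZStable hG hn hZ α hα⟩

end Vale.Agent.Results.P095.UnitalEquivariantZStable
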